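import Mathlib

/-!
Definitions for the statement: Fourier coefficients of a function on the discrete cube.
-/

namespace Vale.Agent.Lib.P047

/-- The real sign attached to a Boolean coordinate: `true` is `1`, `false` is `-1`. -/
def sgn (b : Bool) : ℝ := if b then 1 else -1

/-- The Fourier coefficient `E[f(X) ∏_{i ∈ S} X_i]` for `X` uniform on the cube `{-1,1}^n`,
the cube being indexed by `Fin n → Bool`. -/
noncomputable def fourierCoeff {n : ℕ} (f : (Fin n → Bool) → ℝ) (S : Finset (Fin n)) : ℝ :=
  (∑ x, f x * ∏ i ∈ S, sgn (x i)) / 2 ^ n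

end Vale.Agent.Lib.P047
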