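import Mathlib
import Vale.Agent.Lib.P047.Defs

/-!
Biased Fourier analysis on the cube: the Poincare type inequality
`(1 - t^2) |q'(t)| ≤ d (1 - q(t)^2)` for `q(t) = E_{μ_t} f`, `f` Boolean of degree at most `d`.
-/

open Finset BigOperators

namespace Vale.Agent.Lib.P047

variable {n : ℕ}

/-- weight of a coordinate under the `t`-biased measure -/
noncomputable def w (t : ℝ) (b : Bool) : ℝ := (1 + t * sgn b) / 2

/-- weight of a point under the `t`-biased product measure -/
noncomputable def W (t : ℝ) (x : Fin n → Bool) : ℝ := ∏ i, w t (x i)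

/-- centered coordinate -/
noncomputable def psi (t : ℝ) (b : Bool) : ℝ := sgn b - t

/-- product of centered coordinates -/
noncomputable def Psi (t : ℝ) (T : Finset (Fin n)) (x : Fin n → Bool) : ℝ := ∏ j ∈ T, psi t (x j)

/-- unnormalized biased Fourier coefficient -/
noncomputable def cc (t : ℝ) (f : (Fin n → Bool) → ℝ) (T : Finset (Fin n)) : ℝ :=
  ∑ y, W t y * f y * Psi t T y

lemma w_true (t : ℝ) : w t true = (1 + t) / 2 := by simp [w, sgn]
lemma w_false (t : ℝ) : w t false = (1 - t) / 2 := by simp [w, sgn]; ring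
lemma psi_true (t : ℝ) : psi t true = 1 - t := by simp [psi, sgn]
lemma psi_false (t : ℝ) : psi t false = -1 - t := by simp [psi, sgn]

lemma sum_bool (g : Bool → ℝ) : ∑ b, g b = g true + g false := by
  simp

lemma w_nonneg {t : ℝ} (ht : |t| ≤ 1) (b : Bool) : 0 ≤ w t b := by
  have := abs_le.mp ht
  cases b
  · rw [w_false]; linarith [this.2]
  · rw [w_true]; linarith [this.1]

lemma w_pos {t : ℝ} (ht : |t| < 1) (b : Bool) : 0 < w t b := by
  have := abs_lt.mp ht
  cases b
  · rw [w_false]; linarith [this.2]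
  · rw [w_true]; linarith [this.1]

lemma W_nonneg {t : ℝ} (ht : |t| ≤ 1) (x : Fin n → Bool) : 0 ≤ W t x :=
  Finset.prod_nonneg fun _ _ => w_nonneg ht _

lemma W_pos {t : ℝ} (ht : |t| < 1) (x : Fin n → Bool) : 0 < W t x :=
  Finset.prod_pos fun _ _ => w_pos ht _

/-- factorization of sums of products over the cube -/
lemma sum_prod_cube (h : Fin n → Bool → ℝ) :
    ∑ x : Fin n → Bool, ∏ i, h i (x i) = ∏ i, (h i true + h i false) := by
  have := (Fintype.prod_sum (fun (i : Fin n) (b : Bool) => h i b)).symm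
  simpa [Fintype.sum_bool] using this

lemma W_sum (t : ℝ) : ∑ x : Fin n → Bool, W t x = 1 := by
  unfold W
  rw [sum_prod_cube (fun _ b => w t b)]
  apply Finset.prod_eq_one
  intro i _
  rw [w_true, w_false]; ring

/-- coordinate kernel identity -/
lemma coord_kernel {t : ℝ} (ht : |t| < 1) (a b : Bool) :
    w t a * (1 + psi t a * psi t b / (1 - t ^ 2)) = if a = b then 1 else 0 := by
  have h := abs_lt.mp ht
  have h1 : (1 - t) ≠ 0 := (by linarith [h.2] : 0 < 1 - t).ne'
  have h2 : (1 + t) ≠ 0 := (by linarith [h.1] : 0 < 1 + t).ne'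
  have hr : 1 - t ^ 2 = (1 - t) * (1 + t) := by ring
  rw [hr]
  cases a <;> cases b
  · simp only [w_false, psi_false, if_true]; field_simp; ring
  · have e : (-1 - t) * (1 - t) / ((1 - t) * (1 + t)) = -1 := by field_simp; ring
    simp only [w_false, psi_false, psi_true, e]; simp
  · have e : (1 - t) * (-1 - t) / ((1 - t) * (1 + t)) = -1 := by field_simp; ring
    simp only [w_true, psi_false, psi_true, e]; simp
  · simp only [w_true, psi_true, if_true]; field_simp; ring

/-- completeness of the biased characters -/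
lemma expansion {t : ℝ} (ht : |t| < 1) (f : (Fin n → Bool) → ℝ) (x : Fin n → Bool) :
    f x = ∑ T : Finset (Fin n), cc t f T / (1 - t ^ 2) ^ T.card * Psi t T x := by
  have h := abs_lt.mp ht
  have hr : (1 - t ^ 2) ≠ 0 := by
    have : 0 < 1 - t ^ 2 := by nlinarith [h.1, h.2]
    exact this.ne'
  have key : ∀ T : Finset (Fin n), cc t f T / (1 - t ^ 2) ^ T.card * Psi t T x
      = ∑ y, W t y * f y * ∏ j ∈ T, (psi t (y j) * psi t (x j) / (1 - t ^ 2)) := by
    intro T
    unfold cc
    rw [Finset.sum_div, Finset.sum_mul]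
    apply Finset.sum_congr rfl
    intro y _
    rw [Finset.prod_div_distrib, Finset.prod_mul_distrib, Finset.prod_const]
    unfold Psi
    field_simp
  rw [Finset.sum_congr rfl (fun T _ => key T), Finset.sum_comm]
  have key2 : ∀ y : Fin n → Bool, ∑ T : Finset (Fin n),
      W t y * f y * ∏ j ∈ T, (psi t (y j) * psi t (x j) / (1 - t ^ 2))
      = f y * ∏ j, (if y j = x j then (1:ℝ) else 0) := by
    intro y
    rw [← Finset.mul_sum]
    have : ∑ T : Finset (Fin n), ∏ j ∈ T, (psi t (y j) * psi t (x j) / (1 - t ^ 2))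
        = ∏ j, (1 + psi t (y j) * psi t (x j) / (1 - t ^ 2)) := by
      rw [Finset.prod_one_add, Finset.powerset_univ]
    rw [this]
    unfold W
    have e : (∏ j, w t (y j)) * f y * ∏ j, (1 + psi t (y j) * psi t (x j) / (1 - t ^ 2))
        = f y * ((∏ j, w t (y j)) * ∏ j, (1 + psi t (y j) * psi t (x j) / (1 - t ^ 2))) := by ring
    rw [e, ← Finset.prod_mul_distrib]
    congr 1
    apply Finset.prod_congr rfl
    intro j _
    exact coord_kernel ht _ _
  rw [Finset.sum_congr rfl (fun y _ => key2 y)]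
  rw [Finset.sum_eq_single x]
  · simp
  · intro y _ hy
    obtain ⟨j, hj⟩ : ∃ j, y j ≠ x j := by
      by_contra hc
      push Not at hc
      exact hy (funext hc)
    have : ∏ j, (if y j = x j then (1:ℝ) else 0) = 0 := by
      apply Finset.prod_eq_zero (Finset.mem_univ j)
      simp [hj]
    rw [this, mul_zero]
  · intro hx
    exact absurd (Finset.mem_univ x) hx

/-- Parseval -/
lemma parseval {t : ℝ} (ht : |t| < 1) (f : (Fin n → Bool) → ℝ) :
    ∑ T : Finset (Fin n), cc t f T ^ 2 / (1 - t ^ 2) ^ T.card = ∑ x, W t x * f x ^ 2 := by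
  have : ∀ x, W t x * f x ^ 2
      = ∑ T : Finset (Fin n), cc t f T / (1 - t ^ 2) ^ T.card * (W t x * f x * Psi t T x) := by
    intro x
    have e := expansion ht f x
    calc W t x * f x ^ 2 = W t x * f x * f x := by ring
      _ = W t x * f x * ∑ T : Finset (Fin n), cc t f T / (1 - t ^ 2) ^ T.card * Psi t T x := by
          rw [← e]
      _ = _ := by
          rw [Finset.mul_sum]
          apply Finset.sum_congr rfl
          intro T _
          ring
  rw [Finset.sum_congr rfl (fun x _ => this x), Finset.sum_comm]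
  apply Finset.sum_congr rfl
  intro T _
  rw [← Finset.mul_sum]
  unfold cc
  ring


/-- the character `χ_S` -/
noncomputable def chi (S : Finset (Fin n)) (x : Fin n → Bool) : ℝ := ∏ j ∈ S, sgn (x j)

/-- moment factorization -/
lemma moment (t : ℝ) (S T : Finset (Fin n)) :
    ∑ y, W t y * (chi S y * Psi t T y)
      = ∏ j, (∑ b, w t b * ((if j ∈ S then sgn b else 1) * (if j ∈ T then psi t b else 1))) := by
  have : ∀ y : Fin n → Bool, W t y * (chi S y * Psi t T y)
      = ∏ j, (w t (y j) * ((if j ∈ S then sgn (y j) else 1) * (if j ∈ T then psi t (y j) else 1))) := by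
    intro y
    rw [Finset.prod_mul_distrib, Finset.prod_mul_distrib]
    congr 2
    · unfold chi
      rw [Finset.prod_ite_mem, Finset.univ_inter]
    · unfold Psi
      rw [Finset.prod_ite_mem, Finset.univ_inter]
  rw [Finset.sum_congr rfl (fun y _ => this y)]
  rw [sum_prod_cube (fun j b => w t b * ((if j ∈ S then sgn b else 1) * (if j ∈ T then psi t b else 1)))]
  apply Finset.prod_congr rfl
  intro j _
  rw [sum_bool]

lemma moment_factor (t : ℝ) (j : Fin n) (S T : Finset (Fin n)) :
    (∑ b, w t b * ((if j ∈ S then sgn b else 1) * (if j ∈ T then psi t b else 1)))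
      = if j ∈ T then (if j ∈ S then 1 - t ^ 2 else 0) else (if j ∈ S then t else 1) := by
  rw [sum_bool, w_true, w_false, psi_true, psi_false]
  by_cases h1 : j ∈ S <;> by_cases h2 : j ∈ T <;> simp [h1, h2, sgn] <;> ring

lemma moment_eq_zero (t : ℝ) {S T : Finset (Fin n)} (h : ¬ T ⊆ S) :
    ∑ y, W t y * (chi S y * Psi t T y) = 0 := by
  rw [moment]
  obtain ⟨j, hjT, hjS⟩ := Finset.not_subset.mp h
  apply Finset.prod_eq_zero (Finset.mem_univ j)
  rw [moment_factor]
  simp [hjT, hjS]

lemma moment_empty (t : ℝ) (S : Finset (Fin n)) :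
    ∑ y, W t y * chi S y = t ^ S.card := by
  have h := moment t S (∅ : Finset (Fin n))
  simp only [Psi, Finset.prod_empty, mul_one] at h
  rw [h]
  simp only [moment_factor]
  simp only [Finset.notMem_empty, if_false]
  rw [Finset.prod_ite_mem, Finset.univ_inter, Finset.prod_const]


/-- moment for a single centered coordinate -/
lemma moment_single (t : ℝ) (S : Finset (Fin n)) (i : Fin n) :
    ∑ y, W t y * (chi S y * Psi t {i} y)
      = if i ∈ S then (1 - t ^ 2) * t ^ (S.card - 1) else 0 := by
  by_cases hi : i ∈ S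
  · rw [moment, if_pos hi]
    simp only [moment_factor]
    have e : ∀ j : Fin n, (if j ∈ ({i} : Finset (Fin n)) then (if j ∈ S then 1 - t ^ 2 else 0)
        else (if j ∈ S then t else 1))
        = (if j = i then 1 - t ^ 2 else 1) * (if j ∈ S.erase i then t else 1) := by
      intro j
      by_cases hji : j = i
      · subst hji; simp [hi]
      · by_cases hjS : j ∈ S <;> simp [hji, hjS]
    rw [Finset.prod_congr rfl (fun j _ => e j), Finset.prod_mul_distrib]
    rw [Finset.prod_ite_eq' Finset.univ i (fun _ => 1 - t ^ 2)]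
    rw [Finset.prod_ite_mem, Finset.univ_inter, Finset.prod_const, Finset.card_erase_of_mem hi]
    simp
  · rw [if_neg hi]
    apply moment_eq_zero
    simpa using hi

/-- Fourier inversion -/
lemma fourier_inversion (f : (Fin n → Bool) → ℝ) (x : Fin n → Bool) :
    f x = ∑ S : Finset (Fin n), fourierCoeff f S * chi S x := by
  have h := expansion (t := 0) (by simp) f x
  rw [h]
  apply Finset.sum_congr rfl
  intro S _
  have hW : ∀ y : Fin n → Bool, W 0 y = 1 / 2 ^ n := by
    intro y
    unfold W
    simp [w]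
  have hPsi : ∀ y : Fin n → Bool, Psi 0 S y = chi S y := by
    intro y
    simp [Psi, chi, psi]
  have hc : cc 0 f S = fourierCoeff f S := by
    unfold cc fourierCoeff
    rw [Finset.sum_div]
    apply Finset.sum_congr rfl
    intro y _
    rw [hW, hPsi]
    unfold chi
    ring
  rw [hc, hPsi]
  simp

/-- expansion of biased coefficients in terms of the Fourier coefficients -/
lemma cc_eq (t : ℝ) (f : (Fin n → Bool) → ℝ) (T : Finset (Fin n)) :
    cc t f T = ∑ S : Finset (Fin n), fourierCoeff f S * ∑ y, W t y * (chi S y * Psi t T y) := by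
  unfold cc
  have : ∀ y, W t y * f y * Psi t T y
      = ∑ S : Finset (Fin n), fourierCoeff f S * (W t y * (chi S y * Psi t T y)) := by
    intro y
    conv_lhs => rw [fourier_inversion f y]
    rw [Finset.mul_sum, Finset.sum_mul]
    apply Finset.sum_congr rfl
    intro S _
    ring
  rw [Finset.sum_congr rfl (fun y _ => this y), Finset.sum_comm]
  apply Finset.sum_congr rfl
  intro S _
  rw [Finset.mul_sum]

lemma cc_eq_zero (t : ℝ) {f : (Fin n → Bool) → ℝ} {d : ℕ}
    (hdeg : ∀ S : Finset (Fin n), d < S.card → fourierCoeff f S = 0)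
    {T : Finset (Fin n)} (hT : d < T.card) : cc t f T = 0 := by
  rw [cc_eq]
  apply Finset.sum_eq_zero
  intro S _
  by_cases hS : d < S.card
  · rw [hdeg S hS, zero_mul]
  · rw [moment_eq_zero, mul_zero]
    intro hsub
    have := Finset.card_le_card hsub
    omega

/-- the biased mean as a polynomial in the bias -/
lemma cc_empty (t : ℝ) (f : (Fin n → Bool) → ℝ) :
    cc t f ∅ = ∑ S : Finset (Fin n), fourierCoeff f S * t ^ S.card := by
  rw [cc_eq]
  apply Finset.sum_congr rfl
  intro S _
  have := moment_empty t S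
  simp only [Psi, Finset.prod_empty, mul_one]
  rw [this]

/-- sum of the first level biased coefficients -/
lemma sum_cc_single (t : ℝ) (f : (Fin n → Bool) → ℝ) :
    ∑ i, cc t f {i} = (1 - t ^ 2) *
      ∑ S : Finset (Fin n), fourierCoeff f S * (S.card * t ^ (S.card - 1)) := by
  have : ∀ i, cc t f {i} = ∑ S : Finset (Fin n), fourierCoeff f S *
      (if i ∈ S then (1 - t ^ 2) * t ^ (S.card - 1) else 0) := by
    intro i
    rw [cc_eq]
    apply Finset.sum_congr rfl
    intro S _
    rw [moment_single]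
  rw [Finset.sum_congr rfl (fun i _ => this i), Finset.sum_comm, Finset.mul_sum]
  apply Finset.sum_congr rfl
  intro S _
  rw [← Finset.mul_sum, Finset.sum_ite_mem, Finset.univ_inter, Finset.sum_const]
  simp
  ring


/-- flip coordinate `i` -/
def flipAt (i : Fin n) (x : Fin n → Bool) : Fin n → Bool := Function.update x i (!x i)

lemma flipAt_flipAt (i : Fin n) (x : Fin n → Bool) : flipAt i (flipAt i x) = x := by
  unfold flipAt
  simp

lemma flipAt_self (i : Fin n) (x : Fin n → Bool) : flipAt i x i = !x i := by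
  simp [flipAt]

/-- the flip as a permutation of the cube -/
def flipEquiv (i : Fin n) : (Fin n → Bool) ≃ (Fin n → Bool) where
  toFun := flipAt i
  invFun := flipAt i
  left_inv := flipAt_flipAt i
  right_inv := flipAt_flipAt i

/-- weight of all coordinates but `i` -/
noncomputable def Wo (t : ℝ) (i : Fin n) (x : Fin n → Bool) : ℝ := ∏ j ∈ Finset.univ.erase i, w t (x j)

lemma W_eq (t : ℝ) (i : Fin n) (x : Fin n → Bool) : W t x = w t (x i) * Wo t i x := by
  unfold W Wo
  exact (Finset.mul_prod_erase _ (fun j => w t (x j)) (Finset.mem_univ i)).symm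

lemma Wo_flip (t : ℝ) (i : Fin n) (x : Fin n → Bool) : Wo t i (flipAt i x) = Wo t i x := by
  unfold Wo
  apply Finset.prod_congr rfl
  intro j hj
  have : j ≠ i := Finset.ne_of_mem_erase hj
  simp [flipAt, this]

lemma Wo_nonneg {t : ℝ} (ht : |t| ≤ 1) (i : Fin n) (x : Fin n → Bool) : 0 ≤ Wo t i x :=
  Finset.prod_nonneg fun _ _ => w_nonneg ht _

/-- average over coordinate `i` -/
noncomputable def Ei (t : ℝ) (i : Fin n) (f : (Fin n → Bool) → ℝ) (x : Fin n → Bool) : ℝ :=
  ∑ b, w t b * f (Function.update x i b)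

lemma Ei_eq (t : ℝ) (i : Fin n) (f : (Fin n → Bool) → ℝ) (x : Fin n → Bool) :
    Ei t i f x = w t (x i) * f x + w t (!x i) * f (flipAt i x) := by
  unfold Ei flipAt
  rw [sum_bool]
  have h : Function.update x i (x i) = x := Function.update_eq_self i x
  cases hx : x i
  · simp only [Bool.not_false]
    rw [← hx, h, hx]
    ring
  · simp only [Bool.not_true]
    rw [← hx, h, hx]

lemma sum_w_Psi_update (t : ℝ) (i : Fin n) (T : Finset (Fin n)) (x : Fin n → Bool) :
    ∑ b, w t b * Psi t T (Function.update x i b) = if i ∈ T then 0 else Psi t T x := by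
  by_cases hi : i ∈ T
  · rw [if_pos hi]
    have : ∀ b, Psi t T (Function.update x i b)
        = psi t b * ∏ j ∈ T.erase i, psi t (x j) := by
      intro b
      unfold Psi
      rw [← Finset.mul_prod_erase _ _ hi]
      simp only [Function.update_self]
      congr 1
      apply Finset.prod_congr rfl
      intro j hj
      simp [Finset.ne_of_mem_erase hj]
    simp only [this]
    rw [sum_bool, w_true, w_false, psi_true, psi_false]
    ring
  · rw [if_neg hi]
    have : ∀ b, Psi t T (Function.update x i b) = Psi t T x := by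
      intro b
      unfold Psi
      apply Finset.prod_congr rfl
      intro j hj
      have : j ≠ i := fun h => hi (h ▸ hj)
      simp [this]
    simp only [this]
    rw [sum_bool, w_true, w_false]
    ring

lemma Ei_expansion {t : ℝ} (ht : |t| < 1) (i : Fin n) (f : (Fin n → Bool) → ℝ)
    (x : Fin n → Bool) :
    Ei t i f x = ∑ T : Finset (Fin n),
      if i ∈ T then 0 else cc t f T / (1 - t ^ 2) ^ T.card * Psi t T x := by
  unfold Ei
  have : ∀ b, w t b * f (Function.update x i b) = ∑ T : Finset (Fin n),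
      cc t f T / (1 - t ^ 2) ^ T.card * (w t b * Psi t T (Function.update x i b)) := by
    intro b
    conv_lhs => rw [expansion ht f (Function.update x i b)]
    rw [Finset.mul_sum]
    apply Finset.sum_congr rfl
    intro T _
    ring
  rw [Finset.sum_congr rfl (fun b _ => this b), Finset.sum_comm]
  apply Finset.sum_congr rfl
  intro T _
  rw [← Finset.mul_sum, sum_w_Psi_update]
  by_cases hi : i ∈ T <;> simp [hi]

/-- the part of the spectrum avoiding `i` -/
lemma sum_W_f_Ei {t : ℝ} (ht : |t| < 1) (i : Fin n) (f : (Fin n → Bool) → ℝ) :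
    ∑ x, W t x * f x * Ei t i f x = ∑ T : Finset (Fin n),
      if i ∈ T then 0 else cc t f T ^ 2 / (1 - t ^ 2) ^ T.card := by
  have : ∀ x, W t x * f x * Ei t i f x = ∑ T : Finset (Fin n),
      if i ∈ T then 0 else cc t f T / (1 - t ^ 2) ^ T.card * (W t x * f x * Psi t T x) := by
    intro x
    rw [Ei_expansion ht, Finset.mul_sum]
    apply Finset.sum_congr rfl
    intro T _
    by_cases hi : i ∈ T
    · simp [hi]
    · simp [hi]
      ring
  rw [Finset.sum_congr rfl (fun x _ => this x), Finset.sum_comm]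
  apply Finset.sum_congr rfl
  intro T _
  by_cases hi : i ∈ T
  · simp [hi]
  · simp only [hi, if_false]
    rw [← Finset.mul_sum]
    unfold cc
    ring

/-- the spectral weight on sets containing `i` -/
noncomputable def Vi (t : ℝ) (i : Fin n) (f : (Fin n → Bool) → ℝ) : ℝ :=
  ∑ T : Finset (Fin n), if i ∈ T then cc t f T ^ 2 / (1 - t ^ 2) ^ T.card else 0

lemma w_mul_w_not (t : ℝ) (b : Bool) : w t b * w t (!b) = (1 - t ^ 2) / 4 := by
  cases b <;> simp only [Bool.not_true, Bool.not_false, w_true, w_false] <;> ring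

lemma w_add_w_not (t : ℝ) (b : Bool) : w t b + w t (!b) = 1 := by
  cases b <;> simp only [Bool.not_true, Bool.not_false, w_true, w_false] <;> ring

lemma w_mul_psi (t : ℝ) (b : Bool) : w t b * psi t b = (1 - t ^ 2) / 2 * sgn b := by
  cases b
  · rw [w_false, psi_false]; simp [sgn]; ring
  · rw [w_true, psi_true]; simp [sgn]; ring

lemma sgn_not (b : Bool) : sgn (!b) = - sgn b := by
  cases b <;> simp [sgn]

lemma w_add_w_not_aux (t : ℝ) (b : Bool) : 1 - w t b - w t (!b) = 0 := by
  linarith [w_add_w_not t b]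

lemma Vi_eq {t : ℝ} (ht : |t| < 1) (i : Fin n) (f : (Fin n → Bool) → ℝ) :
    Vi t i f = (1 - t ^ 2) / 4 * ∑ x, Wo t i x * (f x * (f x - f (flipAt i x))) := by
  have h1 : Vi t i f = ∑ T : Finset (Fin n), cc t f T ^ 2 / (1 - t ^ 2) ^ T.card
      - ∑ T : Finset (Fin n), (if i ∈ T then 0 else cc t f T ^ 2 / (1 - t ^ 2) ^ T.card) := by
    unfold Vi
    rw [← Finset.sum_sub_distrib]
    apply Finset.sum_congr rfl
    intro T _
    by_cases hi : i ∈ T <;> simp [hi]
  rw [h1, parseval ht, ← sum_W_f_Ei ht, ← Finset.sum_sub_distrib, Finset.mul_sum]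
  apply Finset.sum_congr rfl
  intro x _
  rw [Ei_eq, W_eq t i x]
  have hw : w t (x i) = 1 - w t (!x i) := by linarith [w_add_w_not t (x i)]
  have hww := w_mul_w_not t (x i)
  calc w t (x i) * Wo t i x * f x ^ 2
        - w t (x i) * Wo t i x * f x * (w t (x i) * f x + w t (!x i) * f (flipAt i x))
      = (w t (x i) * w t (!x i)) * (Wo t i x * (f x * (f x - f (flipAt i x))))
        + w t (x i) * Wo t i x * f x ^ 2 * (1 - w t (x i) - w t (!x i)) := by ring
    _ = _ := by
        rw [hww, w_add_w_not_aux t (x i)]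
        ring


lemma cc_single_eq (t : ℝ) (i : Fin n) (f : (Fin n → Bool) → ℝ) :
    cc t f {i} = (1 - t ^ 2) / 4 *
      ∑ x, Wo t i x * (sgn (x i) * (f x - f (flipAt i x))) := by
  have h1 : cc t f {i} = (1 - t ^ 2) / 2 * ∑ x, Wo t i x * (sgn (x i) * f x) := by
    unfold cc
    rw [Finset.mul_sum]
    apply Finset.sum_congr rfl
    intro x _
    rw [W_eq t i x]
    simp only [Psi, Finset.prod_singleton]
    have := w_mul_psi t (x i)
    calc w t (x i) * Wo t i x * f x * psi t (x i)
        = (w t (x i) * psi t (x i)) * (Wo t i x * f x) := by ring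
      _ = _ := by rw [this]; ring
  have h2 : ∑ x, Wo t i x * (sgn (x i) * f x)
      = - ∑ x, Wo t i x * (sgn (x i) * f (flipAt i x)) := by
    rw [← Finset.sum_neg_distrib]
    rw [← Equiv.sum_comp (flipEquiv i) (fun x => Wo t i x * (sgn (x i) * f x))]
    apply Finset.sum_congr rfl
    intro x _
    show Wo t i (flipAt i x) * (sgn (flipAt i x i) * f (flipAt i x))
        = - (Wo t i x * (sgn (x i) * f (flipAt i x)))
    rw [Wo_flip, flipAt_self, sgn_not]
    ring
  have h3 : ∑ x, Wo t i x * (sgn (x i) * (f x - f (flipAt i x)))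
      = 2 * ∑ x, Wo t i x * (sgn (x i) * f x) := by
    have : ∑ x, Wo t i x * (sgn (x i) * (f x - f (flipAt i x)))
        = ∑ x, Wo t i x * (sgn (x i) * f x) - ∑ x, Wo t i x * (sgn (x i) * f (flipAt i x)) := by
      rw [← Finset.sum_sub_distrib]
      apply Finset.sum_congr rfl
      intro x _
      ring
    rw [this]
    linarith [h2]
  rw [h1, h3]
  ring

lemma abs_sgn (b : Bool) : |sgn b| = 1 := by
  cases b <;> simp [sgn]

/-- first level biased coefficients are controlled by the spectral weight on `i`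
for Boolean functions -/
lemma abs_cc_single_le {t : ℝ} (ht : |t| < 1) (i : Fin n) (f : (Fin n → Bool) → ℝ)
    (hf : ∀ x, f x = 1 ∨ f x = -1) : |cc t f {i}| ≤ Vi t i f := by
  have h := abs_lt.mp ht
  have hr : 0 < 1 - t ^ 2 := by nlinarith [h.1, h.2]
  rw [cc_single_eq, Vi_eq ht, abs_mul, abs_of_pos (by positivity : 0 < (1 - t ^ 2) / 4)]
  apply mul_le_mul_of_nonneg_left _ (by positivity)
  refine (Finset.abs_sum_le_sum_abs _ _).trans (Finset.sum_le_sum ?_)
  intro x _
  rw [abs_mul, abs_of_nonneg (Wo_nonneg ht.le i x)]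
  apply mul_le_mul_of_nonneg_left _ (Wo_nonneg ht.le i x)
  rw [abs_mul, abs_sgn, one_mul]
  rcases hf x with h1 | h1 <;> rcases hf (flipAt i x) with h2 | h2 <;> rw [h1, h2] <;> norm_num

/-- The Poincare type inequality at bias `t`. -/
theorem poincare {t : ℝ} (ht : |t| < 1) {d : ℕ} (f : (Fin n → Bool) → ℝ)
    (hf : ∀ x, f x = 1 ∨ f x = -1)
    (hdeg : ∀ S : Finset (Fin n), d < S.card → fourierCoeff f S = 0) :
    (1 - t ^ 2) * |∑ S : Finset (Fin n), fourierCoeff f S * (S.card * t ^ (S.card - 1))|
      ≤ d * (1 - (∑ S : Finset (Fin n), fourierCoeff f S * t ^ S.card) ^ 2) := by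
  have h := abs_lt.mp ht
  have hr : 0 < 1 - t ^ 2 := by nlinarith [h.1, h.2]
  have hpar : ∑ T : Finset (Fin n), cc t f T ^ 2 / (1 - t ^ 2) ^ T.card = 1 := by
    rw [parseval ht]
    have : ∀ x, W t x * f x ^ 2 = W t x := by
      intro x
      rcases hf x with h1 | h1 <;> rw [h1] <;> ring
    rw [Finset.sum_congr rfl (fun x _ => this x), W_sum]
  have h1 : (1 - t ^ 2) * |∑ S : Finset (Fin n), fourierCoeff f S * (S.card * t ^ (S.card - 1))|
      = |∑ i, cc t f {i}| := by
    rw [sum_cc_single, abs_mul, abs_of_pos hr]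
  rw [h1, ← cc_empty]
  have h2 : |∑ i, cc t f {i}| ≤ ∑ i, Vi t i f :=
    (Finset.abs_sum_le_sum_abs _ _).trans
      (Finset.sum_le_sum fun i _ => abs_cc_single_le ht i f hf)
  refine h2.trans ?_
  have h3 : ∑ i, Vi t i f = ∑ T : Finset (Fin n), (T.card : ℝ) * (cc t f T ^ 2 / (1 - t ^ 2) ^ T.card) := by
    unfold Vi
    rw [Finset.sum_comm]
    apply Finset.sum_congr rfl
    intro T _
    rw [Finset.sum_ite_mem, Finset.univ_inter, Finset.sum_const]
    simp
  rw [h3]
  have h4 : (1 : ℝ) - cc t f ∅ ^ 2 = ∑ T : Finset (Fin n),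
      if T = ∅ then 0 else cc t f T ^ 2 / (1 - t ^ 2) ^ T.card := by
    have : (∑ T : Finset (Fin n), if T = ∅ then 0 else cc t f T ^ 2 / (1 - t ^ 2) ^ T.card)
        = ∑ T : Finset (Fin n), (cc t f T ^ 2 / (1 - t ^ 2) ^ T.card
          - if T = ∅ then cc t f ∅ ^ 2 else 0) := by
      apply Finset.sum_congr rfl
      intro T _
      by_cases hT : T = ∅
      · subst hT; simp
      · simp [hT]
    rw [this, Finset.sum_sub_distrib, hpar]
    simp
  rw [h4, Finset.mul_sum]
  apply Finset.sum_le_sum
  intro T _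
  by_cases hT : T = ∅
  · subst hT; simp
  · rw [if_neg hT]
    by_cases hd : d < T.card
    · rw [cc_eq_zero t hdeg hd]
      simp
    · have hle : (T.card : ℝ) ≤ d := by exact_mod_cast (not_lt.mp hd)
      exact mul_le_mul_of_nonneg_right hle (by positivity)

end Vale.Agent.Lib.P047
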