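import Mathlib

/-!
The numerical bound `((1 + s) / (1 - s)) ^ D ≤ 34` for `s = sin (π / (2 D))`, `D ≥ 2`.
-/

namespace Vale.Agent.Lib.P047

lemma log_ratio_le {x : ℝ} (h0 : 0 ≤ x) (h1 : x < 1) :
    Real.log (1 + x) - Real.log (1 - x) ≤ 2 * x * (1 - x ^ 2)⁻¹ := by
  have hx : |x| < 1 := by rw [abs_of_nonneg h0]; exact h1
  have h2 := Real.hasSum_log_sub_log_of_abs_lt_one hx
  have hx2 : x ^ 2 < 1 := by nlinarith
  have h3 := (hasSum_geometric_of_lt_one (sq_nonneg x) hx2).mul_left (2 * x)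
  refine hasSum_le ?_ h2 h3
  intro k
  have e : x ^ (2 * k + 1) = x * (x ^ 2) ^ k := by
    rw [pow_succ, pow_mul]; ring
  rw [e]
  have hk : (1 : ℝ) / (2 * k + 1) ≤ 1 := by
    rw [div_le_one (by positivity)]
    have : (0 : ℝ) ≤ k := by positivity
    linarith
  have hp : 0 ≤ x * (x ^ 2) ^ k := by positivity
  calc 2 * (1 / (2 * (k : ℝ) + 1)) * (x * (x ^ 2) ^ k)
      = 2 * ((1 / (2 * (k : ℝ) + 1)) * (x * (x ^ 2) ^ k)) := by ring
    _ ≤ 2 * (1 * (x * (x ^ 2) ^ k)) := by
        apply mul_le_mul_of_nonneg_left _ (by norm_num)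
        exact mul_le_mul_of_nonneg_right hk hp
    _ = 2 * x * (x ^ 2) ^ k := by ring

lemma exp_seven_halves_le : Real.exp (7 / 2) ≤ 34 := by
  by_contra h
  push Not at h
  have h1 : (34 : ℝ) ^ 2 < Real.exp (7 / 2) ^ 2 := pow_lt_pow_left₀ h (by norm_num) (by norm_num)
  have h2 : Real.exp (7 / 2) ^ 2 = Real.exp 1 ^ 7 := by
    rw [← Real.exp_nat_mul, ← Real.exp_nat_mul]
    congr 1
    norm_num
  have h3 : Real.exp 1 ^ 7 < (2.7182818286 : ℝ) ^ 7 :=
    pow_lt_pow_left₀ Real.exp_one_lt_d9 (Real.exp_pos _).le (by norm_num)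
  rw [h2] at h1
  have h4 : (2.7182818286 : ℝ) ^ 7 < 34 ^ 2 := by norm_num
  linarith

lemma s_facts {D : ℕ} (hD : 2 ≤ D) :
    0 ≤ Real.sin (Real.pi / (2 * D)) ∧ Real.sin (Real.pi / (2 * D)) < 1 := by
  have hD' : (2 : ℝ) ≤ D := by exact_mod_cast hD
  have hpi := Real.pi_pos
  have h1 : Real.pi / (2 * D) ≤ Real.pi / 4 := by
    apply div_le_div_of_nonneg_left hpi.le (by norm_num)
    linarith
  have h0 : 0 < Real.pi / (2 * D) := by positivity
  constructor
  · apply Real.sin_nonneg_of_nonneg_of_le_pi h0.le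
    linarith
  · have h2 : Real.sin (Real.pi / (2 * D)) ≤ Real.sin (Real.pi / 4) := by
      apply Real.sin_le_sin_of_le_of_le_pi_div_two <;> linarith
    rw [Real.sin_pi_div_four] at h2
    have h3 : √2 < 2 := by
      rw [Real.sqrt_lt' (by norm_num)]
      norm_num
    linarith

/-- The numerical bound. -/
theorem K_le {D : ℕ} (hD : 2 ≤ D) :
    ((1 + Real.sin (Real.pi / (2 * D))) / (1 - Real.sin (Real.pi / (2 * D)))) ^ D ≤ 34 := by
  obtain ⟨hs0, hs1⟩ := s_facts hD
  have hD' : (2 : ℝ) ≤ D := by exact_mod_cast hD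
  have hpi := Real.pi_pos
  have hpi2 := Real.pi_lt_d4
  have hle : Real.sin (Real.pi / (2 * D)) ≤ Real.pi / (2 * D) := Real.sin_le (by positivity)
  rcases Nat.lt_or_ge D 5 with h5 | h5
  · interval_cases D
    · have e : Real.pi / (2 * ((2 : ℕ) : ℝ)) = Real.pi / 4 := by norm_num
      rw [e, Real.sin_pi_div_four]
      have hs : √2 ^ 2 = 2 := Real.sq_sqrt (by norm_num)
      have hs0 : 0 < √2 := by positivity
      have hs2 : √2 < 2 := by
        rw [Real.sqrt_lt' (by norm_num)]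
        norm_num
      have hh : (1 + √2 / 2) / (1 - √2 / 2) = 3 + 2 * √2 := by
        rw [div_eq_iff (by linarith)]
        nlinarith
      rw [hh]
      nlinarith [sq_nonneg (√2 - 17 / 12), hs]
    · have e : Real.pi / (2 * ((3 : ℕ) : ℝ)) = Real.pi / 6 := by norm_num
      rw [e, Real.sin_pi_div_six]
      norm_num
    · have e : Real.pi / (2 * ((4 : ℕ) : ℝ)) = Real.pi / 8 := by norm_num
      rw [e] at hs0 hs1 hle ⊢
      set s := Real.sin (Real.pi / 8)
      have h1 : s ≤ 0.3927 := by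
        have : Real.pi / 8 ≤ 0.3927 := by linarith
        linarith
      have hr0 : 0 ≤ (1 + s) / (1 - s) := div_nonneg (by linarith) (by linarith)
      have hr : (1 + s) / (1 - s) ≤ 2.3 := by
        rw [div_le_iff₀ (by linarith)]
        linarith
      calc ((1 + s) / (1 - s)) ^ 4 ≤ (2.3 : ℝ) ^ 4 := pow_le_pow_left₀ hr0 hr 4
        _ ≤ 34 := by norm_num
  · set s := Real.sin (Real.pi / (2 * D)) with hs
    have hD5 : (5 : ℝ) ≤ D := by exact_mod_cast h5
    have h1 : Real.pi / (2 * D) ≤ Real.pi / 10 := by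
      apply div_le_div_of_nonneg_left hpi.le (by norm_num)
      linarith
    have h2 : s ≤ 0.3142 := by
      have : Real.pi / 10 ≤ 0.3142 := by linarith
      linarith
    have hs2 : s ^ 2 ≤ 1 / 10 := by nlinarith
    have hinv : (1 - s ^ 2)⁻¹ ≤ 10 / 9 := by
      rw [inv_le_comm₀ (by nlinarith) (by norm_num)]
      norm_num
      linarith
    have hr0 : 0 < (1 + s) / (1 - s) := div_pos (by linarith) (by linarith)
    have hlog := log_ratio_le hs0 hs1
    have hDs : (D : ℝ) * (2 * s) ≤ Real.pi := by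
      have : (D : ℝ) * (2 * (Real.pi / (2 * D))) = Real.pi := by
        field_simp
      rw [← this]
      apply mul_le_mul_of_nonneg_left _ (by positivity)
      linarith
    have hlogK : Real.log (((1 + s) / (1 - s)) ^ D) ≤ 7 / 2 := by
      rw [Real.log_pow, Real.log_div (by linarith) (by linarith)]
      have hinv0 : 0 ≤ (1 - s ^ 2)⁻¹ := by
        rw [inv_nonneg]
        linarith
      calc (D : ℝ) * (Real.log (1 + s) - Real.log (1 - s))
          ≤ D * (2 * s * (1 - s ^ 2)⁻¹) := mul_le_mul_of_nonneg_left hlog (by positivity)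
        _ = ((D : ℝ) * (2 * s)) * (1 - s ^ 2)⁻¹ := by ring
        _ ≤ Real.pi * (10 / 9) := mul_le_mul hDs hinv hinv0 hpi.le
        _ ≤ 7 / 2 := by linarith
    have hK : ((1 + s) / (1 - s)) ^ D ≤ Real.exp (7 / 2) := by
      rw [← Real.log_le_iff_le_exp (by positivity)] 
      exact hlogK
    exact hK.trans exp_seven_halves_le

end Vale.Agent.Lib.P047
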