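import Mathlib

/-!
The differential inequality `(1 - t²) |Q'| ≤ d (1 - Q²)` prevents a polynomial with values in
`(-1,1)` from moving too quickly.
-/

namespace Vale.Agent.Lib.P047

/-- the monotone quantity -/
noncomputable def Lam (Q : Polynomial ℝ) (d : ℕ) (t : ℝ) : ℝ :=
  Real.log (1 + Q.eval t) - Real.log (1 - Q.eval t) - d * Real.log (1 + t) + d * Real.log (1 - t)

lemma Lam_hasDeriv (Q : Polynomial ℝ) (d : ℕ) {t : ℝ} (ht : |t| < 1) (hQ : |Q.eval t| < 1) :
    HasDerivAt (Lam Q d)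
      (Q.derivative.eval t / (1 + Q.eval t) - (- Q.derivative.eval t) / (1 - Q.eval t)
        - d * (1 / (1 + t)) + d * ((-1) / (1 - t))) t := by
  have h := abs_lt.mp ht
  have hq := abs_lt.mp hQ
  have h1 : (1 + Q.eval t) ≠ 0 := by linarith [hq.1] |> fun h => ne_of_gt h
  have h2 : (1 - Q.eval t) ≠ 0 := by linarith [hq.2] |> fun h => ne_of_gt h
  have h3 : (1 + t) ≠ 0 := by linarith [h.1] |> fun h => ne_of_gt h
  have h4 : (1 - t) ≠ 0 := by linarith [h.2] |> fun h => ne_of_gt h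
  have d1 := ((Q.hasDerivAt t).const_add 1).log h1
  have d2 := ((Q.hasDerivAt t).const_sub 1).log h2
  have d3 := (((hasDerivAt_id t).const_add 1).log h3).const_mul (d : ℝ)
  have d4 := (((hasDerivAt_id t).const_sub 1).log h4).const_mul (d : ℝ)
  have key := ((d1.sub d2).sub d3).add d4
  have hfun : Lam Q d = ((((fun y => Real.log (1 + Polynomial.eval y Q)) - fun y => Real.log (1 - Polynomial.eval y Q)) - fun y =>
        (d : ℝ) * Real.log (1 + id y)) +
      fun y => (d : ℝ) * Real.log (1 - id y)) := by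
    funext y
    simp [Lam]
  rw [hfun]
  exact key

lemma Lam_deriv_nonpos (Q : Polynomial ℝ) (d : ℕ) {t : ℝ} (ht : |t| < 1) (hQ : |Q.eval t| < 1)
    (hP : (1 - t ^ 2) * |Q.derivative.eval t| ≤ d * (1 - Q.eval t ^ 2)) :
    Q.derivative.eval t / (1 + Q.eval t) - (- Q.derivative.eval t) / (1 - Q.eval t)
        - d * (1 / (1 + t)) + d * ((-1) / (1 - t)) ≤ 0 := by
  have h := abs_lt.mp ht
  have hq := abs_lt.mp hQ
  have h1 : 0 < 1 + Q.eval t := by linarith [hq.1]
  have h2 : 0 < 1 - Q.eval t := by linarith [hq.2]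
  have h3 : 0 < 1 + t := by linarith [h.1]
  have h4 : 0 < 1 - t := by linarith [h.2]
  have e : Q.derivative.eval t / (1 + Q.eval t) - (- Q.derivative.eval t) / (1 - Q.eval t)
        - d * (1 / (1 + t)) + d * ((-1) / (1 - t))
      = 2 * ((1 - t ^ 2) * Q.derivative.eval t - d * (1 - Q.eval t ^ 2))
        / ((1 + Q.eval t) * (1 - Q.eval t) * ((1 + t) * (1 - t))) := by
    field_simp
    ring
  rw [e]
  apply div_nonpos_of_nonpos_of_nonneg
  · have h5 := le_abs_self (Q.derivative.eval t)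
    have h6 : (1 - t ^ 2) * Q.derivative.eval t ≤ (1 - t ^ 2) * |Q.derivative.eval t| :=
      mul_le_mul_of_nonneg_left h5 (by nlinarith)
    linarith
  · positivity

lemma Lam_antitone (Q : Polynomial ℝ) (d : ℕ)
    (hQ : ∀ t : ℝ, |t| < 1 → |Q.eval t| < 1)
    (hP : ∀ t : ℝ, |t| < 1 → (1 - t ^ 2) * |Q.derivative.eval t| ≤ d * (1 - Q.eval t ^ 2)) :
    AntitoneOn (Lam Q d) (Set.Ioo (-1) 1) := by
  have hmem : ∀ t ∈ Set.Ioo (-1 : ℝ) 1, |t| < 1 := fun t ht => abs_lt.mpr ht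
  apply antitoneOn_of_deriv_nonpos (convex_Ioo _ _)
  · intro t ht
    exact (Lam_hasDeriv Q d (hmem t ht) (hQ t (hmem t ht))).continuousAt.continuousWithinAt
  · intro t ht
    rw [interior_Ioo] at ht
    exact (Lam_hasDeriv Q d (hmem t ht) (hQ t (hmem t ht))).differentiableAt.differentiableWithinAt
  · intro t ht
    rw [interior_Ioo] at ht
    rw [(Lam_hasDeriv Q d (hmem t ht) (hQ t (hmem t ht))).deriv]
    exact Lam_deriv_nonpos Q d (hmem t ht) (hQ t (hmem t ht)) (hP t (hmem t ht))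

/-- the elementary combination of the two one sided bounds -/
lemma two_sided_alg {a K x y : ℝ} (ha : 0 < a) (hK : 1 ≤ K)
    (hx1 : x < 1) (hy1 : -1 < y) (hy2 : y < 1)
    (hx : (1 + x) / (1 - x) ≤ a * K) (hy : a / K ≤ (1 + y) / (1 - y)) :
    4 / (K + 1) ≤ 2 - (x - y) := by
  have hK0 : 0 < K := by linarith
  have hr : 0 < 1 - x := by linarith
  have hr' : 0 < 1 + y := by linarith
  have hr2 : 0 < 1 - y := by linarith
  have h1 : 2 / (a * K + 1) ≤ 1 - x := by
    rw [div_le_iff₀ hr] at hx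
    rw [div_le_iff₀ (by positivity)]
    nlinarith
  have h2 : 2 * a / (K + a) ≤ 1 + y := by
    rw [le_div_iff₀ hr2, div_mul_eq_mul_div, div_le_iff₀ hK0] at hy
    rw [div_le_iff₀ (by positivity)]
    nlinarith
  have h3 : 4 / (K + 1) ≤ 2 / (a * K + 1) + 2 * a / (K + a) := by
    rw [div_add_div _ _ (by positivity) (by positivity), div_le_div_iff₀ (by positivity) (by positivity)]
    have : 0 ≤ K * (K - 1) * (1 - a) ^ 2 := by
      apply mul_nonneg (mul_nonneg hK0.le (by linarith)) (sq_nonneg _)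
    nlinarith
  linarith

/-- The key consequence of the differential inequality. -/
theorem ode_bound (Q : Polynomial ℝ) (d : ℕ)
    (hQ : ∀ t : ℝ, |t| < 1 → |Q.eval t| < 1)
    (hP : ∀ t : ℝ, |t| < 1 → (1 - t ^ 2) * |Q.derivative.eval t| ≤ d * (1 - Q.eval t ^ 2))
    {s : ℝ} (hs0 : 0 ≤ s) (hs1 : s < 1) :
    4 / (((1 + s) / (1 - s)) ^ d + 1) ≤ 2 - (Q.eval s - Q.eval (-s)) := by
  have hanti := Lam_antitone Q d hQ hP
  have h0 : (0 : ℝ) ∈ Set.Ioo (-1 : ℝ) 1 := by constructor <;> norm_num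
  have hsm : s ∈ Set.Ioo (-1 : ℝ) 1 := ⟨by linarith, hs1⟩
  have hsn : -s ∈ Set.Ioo (-1 : ℝ) 1 := ⟨by linarith, by linarith⟩
  have l1 : Lam Q d s ≤ Lam Q d 0 := hanti h0 hsm hs0
  have l2 : Lam Q d 0 ≤ Lam Q d (-s) := hanti hsn h0 (by linarith)
  have q0 := abs_lt.mp (hQ 0 (by simp))
  have qs := abs_lt.mp (hQ s (abs_lt.mpr hsm))
  have qn := abs_lt.mp (hQ (-s) (abs_lt.mpr hsn))
  set x := Q.eval s with hx
  set y := Q.eval (-s) with hy
  set a := (1 + Q.eval 0) / (1 - Q.eval 0) with ha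
  set r := (1 + s) / (1 - s) with hr
  have hA : 0 < 1 + Q.eval 0 := by linarith [q0.1]
  have hB : 0 < 1 - Q.eval 0 := by linarith [q0.2]
  have ha0 : 0 < a := div_pos hA hB
  have hs1' : 0 < 1 - s := by linarith
  have hs2' : 0 < 1 + s := by linarith
  have hr0 : 0 < r := div_pos hs2' hs1'
  have hr1 : 1 ≤ r := by
    rw [hr, le_div_iff₀ hs1']
    linarith
  have hK1 : 1 ≤ r ^ d := one_le_pow₀ hr1
  have hK0 : 0 < r ^ d := by positivity
  have lr : Real.log r = Real.log (1 + s) - Real.log (1 - s) := by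
    rw [hr, Real.log_div hs2'.ne' hs1'.ne']
  have la : Real.log a = Real.log (1 + Q.eval 0) - Real.log (1 - Q.eval 0) := by
    rw [ha, Real.log_div hA.ne' hB.ne']
  have lK : Real.log (r ^ d) = d * Real.log r := Real.log_pow _ _
  have l00 : Lam Q d 0 = Real.log a := by
    unfold Lam
    rw [la]
    simp
  have x1 : 0 < 1 + x := by linarith [qs.1]
  have x2 : 0 < 1 - x := by linarith [qs.2]
  have y1 : 0 < 1 + y := by linarith [qn.1]
  have y2 : 0 < 1 - y := by linarith [qn.2]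
  apply two_sided_alg ha0 hK1 qs.2 qn.1 qn.2
  · apply (Real.log_le_log_iff (div_pos x1 x2) (by positivity)).mp
    rw [Real.log_div x1.ne' x2.ne', Real.log_mul ha0.ne' hK0.ne', lK, lr]
    rw [l00] at l1
    unfold Lam at l1
    rw [← hx] at l1
    linarith
  · apply (Real.log_le_log_iff (by positivity) (div_pos y1 y2)).mp
    rw [Real.log_div y1.ne' y2.ne', Real.log_div ha0.ne' hK0.ne', lK, lr]
    rw [l00] at l2
    unfold Lam at l2
    rw [← hy] at l2
    have e1 : (1 + -s) = 1 - s := by ring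
    have e2 : (1 - -s) = 1 + s := by ring
    rw [e1, e2] at l2
    linarith

end Vale.Agent.Lib.P047
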