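import Vale.Agent.Lib.P047.Riesz

/-!
The two-node consequence of the Riesz formula, and the elementary inequalities used with it.
-/

open Finset

namespace Vale.Agent.Lib.P047

lemma theta_zero (D : ℕ) : theta D 0 = Real.pi / (2 * D) := by
  unfold theta; simp

lemma theta_half_zero {D : ℕ} : theta D 0 / 2 = Real.pi / (4 * D) := by
  rw [theta_zero, div_div]; ring_nf

lemma theta_last {D : ℕ} (hD : 0 < D) :
    theta D (2 * D - 1) = 2 * Real.pi - Real.pi / (2 * D) := by
  have hD' : (D : ℝ) ≠ 0 := by exact_mod_cast hD.ne'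
  unfold theta
  have : ((2 * D - 1 : ℕ) : ℝ) = 2 * (D : ℝ) - 1 := by
    rw [Nat.cast_sub (by omega)]; push_cast; ring
  rw [this]
  field_simp
  ring

lemma sin_theta_last {D : ℕ} (hD : 0 < D) :
    Real.sin (theta D (2 * D - 1)) = - Real.sin (Real.pi / (2 * D)) := by
  rw [theta_last hD, Real.sin_two_pi_sub]

lemma sin_theta_half_last {D : ℕ} (hD : 0 < D) :
    Real.sin (theta D (2 * D - 1) / 2) = Real.sin (Real.pi / (4 * D)) := by
  have hD' : (D : ℝ) ≠ 0 := by exact_mod_cast hD.ne'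
  have : theta D (2 * D - 1) / 2 = Real.pi - Real.pi / (4 * D) := by
    rw [theta_last hD]
    field_simp
    ring
  rw [this, Real.sin_pi_sub]

/-- the common mass of the two nodes nearest to `0` -/
noncomputable def w0 (D : ℕ) : ℝ := 1 / (4 * D * Real.sin (Real.pi / (4 * D)) ^ 2)

lemma wt_zero (D : ℕ) : wt D 0 = w0 D := by
  unfold wt w0
  rw [theta_half_zero]
  simp

lemma wt_last {D : ℕ} (hD : 0 < D) : wt D (2 * D - 1) = - w0 D := by
  unfold wt w0
  rw [sin_theta_half_last hD]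
  have : ((-1 : ℝ)) ^ (2 * D - 1) = -1 := Odd.neg_one_pow ⟨D - 1, by omega⟩
  rw [this, neg_div]

/-- Two node form of the Riesz bound. -/
theorem riesz_two_nodes {D : ℕ} (hD : 0 < D) (Q : Polynomial ℝ) (hQ : Q.natDegree ≤ D)
    (hb : ∀ x : ℝ, |x| ≤ 1 → |Q.eval x| ≤ 1) :
    w0 D * (2 - (Q.eval (Real.sin (Real.pi / (2 * D))) - Q.eval (- Real.sin (Real.pi / (2 * D)))))
      ≤ D - Q.derivative.eval 0 := by
  have hnn : ∀ k ∈ range (2 * D), 0 ≤ |wt D k| - wt D k * Q.eval (Real.sin (theta D k)) := by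
    intro k _
    have h1 := hb _ (Real.abs_sin_le_one (theta D k))
    have h2 : |wt D k * Q.eval (Real.sin (theta D k))| ≤ |wt D k| := by
      rw [abs_mul]
      exact mul_le_of_le_one_right (abs_nonneg _) h1
    have h3 := le_abs_self (wt D k * Q.eval (Real.sin (theta D k)))
    linarith
  have hsum : ∑ k ∈ range (2 * D), (|wt D k| - wt D k * Q.eval (Real.sin (theta D k)))
      = D - Q.derivative.eval 0 := by
    rw [Finset.sum_sub_distrib, sum_abs_wt hD, riesz hD Q hQ]
  have hsub : ({0, 2 * D - 1} : Finset ℕ) ⊆ range (2 * D) := by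
    intro k hk
    simp only [Finset.mem_insert, Finset.mem_singleton] at hk
    rcases hk with rfl | rfl <;> simp <;> omega
  have hle := Finset.sum_le_sum_of_subset_of_nonneg hsub (fun k hk _ => hnn k hk)
  rw [hsum, Finset.sum_pair (by omega)] at hle
  have hw0 : 0 ≤ w0 D := by unfold w0; positivity
  rw [wt_zero, wt_last hD, sin_theta_last hD, theta_zero, abs_neg, abs_of_nonneg hw0] at hle
  linarith

/-- The mass `w0` is at least `4 D / π²`. -/
lemma w0_lower {D : ℕ} (hD : 0 < D) : 4 * D / Real.pi ^ 2 ≤ w0 D := by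
  have hD' : (0 : ℝ) < D := by exact_mod_cast hD
  have hpi := Real.pi_pos
  have hx : 0 < Real.pi / (4 * D) := by positivity
  have hs1 : Real.sin (Real.pi / (4 * D)) ≤ Real.pi / (4 * D) := Real.sin_le hx.le
  have hs0 : 0 < Real.sin (Real.pi / (4 * D)) := by
    apply Real.sin_pos_of_pos_of_lt_pi hx
    rw [div_lt_iff₀ (by positivity)]
    have : (1 : ℝ) ≤ D := by exact_mod_cast hD
    nlinarith
  unfold w0
  rw [div_le_div_iff₀ (by positivity) (by positivity)]
  have h2 : Real.sin (Real.pi / (4 * D)) ^ 2 ≤ (Real.pi / (4 * D)) ^ 2 :=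
    pow_le_pow_left₀ hs0.le hs1 2
  have h3 : 4 * (D : ℝ) * (4 * D * Real.sin (Real.pi / (4 * D)) ^ 2) ≤ 4 * D * (4 * D * (Real.pi / (4 * D)) ^ 2) :=
    mul_le_mul_of_nonneg_left (mul_le_mul_of_nonneg_left h2 (by positivity)) (by positivity)
  have h4 : 4 * (D : ℝ) * (4 * D * (Real.pi / (4 * D)) ^ 2) = Real.pi ^ 2 := by
    field_simp
  linarith

end Vale.Agent.Lib.P047
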