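import Vale.Agent.Lib.P047.Biased
import Vale.Agent.Lib.P047.RieszBound
import Vale.Agent.Lib.P047.Ode
import Vale.Agent.Lib.P047.Numerics

/-!
Assembly: for a Boolean function of degree at most `d ≥ 2` the level one sum is at most `(21/22) d`.
-/

open Finset

namespace Vale.Agent.Lib.P047

variable {n : ℕ}

/-- The polynomial in the bias: `Q(t)` is the mean of `f` under the `t`-biased measure. -/
noncomputable def QQ (f : (Fin n → Bool) → ℝ) : Polynomial ℝ :=
  ∑ S : Finset (Fin n), Polynomial.C (fourierCoeff f S) * Polynomial.X ^ S.card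

lemma QQ_eval (f : (Fin n → Bool) → ℝ) (t : ℝ) :
    (QQ f).eval t = ∑ S : Finset (Fin n), fourierCoeff f S * t ^ S.card := by
  unfold QQ
  rw [Polynomial.eval_finsetSum]
  simp

lemma QQ_deriv_eval (f : (Fin n → Bool) → ℝ) (t : ℝ) :
    (QQ f).derivative.eval t
      = ∑ S : Finset (Fin n), fourierCoeff f S * (S.card * t ^ (S.card - 1)) := by
  unfold QQ
  rw [Polynomial.derivative_sum, Polynomial.eval_finsetSum]
  simp [Polynomial.derivative_X_pow]

lemma QQ_natDegree {d : ℕ} (f : (Fin n → Bool) → ℝ)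
    (hdeg : ∀ S : Finset (Fin n), d < S.card → fourierCoeff f S = 0) :
    (QQ f).natDegree ≤ d := by
  unfold QQ
  apply Polynomial.natDegree_sum_le_of_forall_le
  intro S _
  by_cases h : d < S.card
  · rw [hdeg S h]
    simp
  · exact (Polynomial.natDegree_C_mul_X_pow_le _ _).trans (not_lt.mp h)

lemma QQ_eval_eq_W (f : (Fin n → Bool) → ℝ) (t : ℝ) :
    (QQ f).eval t = ∑ x, W t x * f x := by
  rw [QQ_eval, ← cc_empty]
  unfold cc
  simp [Psi]

lemma QQ_abs_le (f : (Fin n → Bool) → ℝ) (hf : ∀ x, f x = 1 ∨ f x = -1) {t : ℝ} (ht : |t| ≤ 1) :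
    |(QQ f).eval t| ≤ 1 := by
  rw [QQ_eval_eq_W, ← W_sum (n := n) t]
  refine (Finset.abs_sum_le_sum_abs _ _).trans (Finset.sum_le_sum fun x _ => ?_)
  rw [abs_mul, abs_of_nonneg (W_nonneg ht x)]
  rcases hf x with h | h <;> rw [h] <;> simp

lemma QQ_abs_lt (f : (Fin n → Bool) → ℝ) (hf : ∀ x, f x = 1 ∨ f x = -1)
    {x₁ x₂ : Fin n → Bool} (h1 : f x₁ = 1) (h2 : f x₂ = -1) {t : ℝ} (ht : |t| < 1) :
    |(QQ f).eval t| < 1 := by
  rw [QQ_eval_eq_W]
  have hW : ∑ x : Fin n → Bool, W t x = 1 := W_sum t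
  rw [abs_lt]
  constructor
  · rw [← hW, ← Finset.sum_neg_distrib]
    apply Finset.sum_lt_sum
    · intro x _
      have := W_pos ht x
      rcases hf x with h | h <;> rw [h] <;> linarith
    · refine ⟨x₁, Finset.mem_univ _, ?_⟩
      have := W_pos ht x₁
      rw [h1]
      linarith
  · rw [← hW]
    apply Finset.sum_lt_sum
    · intro x _
      have := W_pos ht x
      rcases hf x with h | h <;> rw [h] <;> linarith
    · refine ⟨x₂, Finset.mem_univ _, ?_⟩
      have := W_pos ht x₂
      rw [h2]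
      linarith

lemma cc_zero_single (f : (Fin n → Bool) → ℝ) (i : Fin n) :
    cc 0 f {i} = fourierCoeff f {i} := by
  unfold cc fourierCoeff
  have h : ∀ x : Fin n → Bool, W 0 x * f x * Psi 0 {i} x = (f x * ∏ j ∈ ({i} : Finset (Fin n)), sgn (x j)) / 2 ^ n := by
    intro x
    have hW : W 0 x = (1 / 2) ^ n := by
      unfold W w
      simp
    rw [hW]
    simp [Psi, psi]
    field_simp
  rw [Finset.sum_congr rfl (fun x _ => h x), Finset.sum_div]

/-- the derivative at `0` is the level one sum -/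
lemma QQ_deriv_zero (f : (Fin n → Bool) → ℝ) :
    (QQ f).derivative.eval 0 = ∑ i, fourierCoeff f {i} := by
  rw [QQ_deriv_eval]
  have := sum_cc_single 0 f
  simp only [cc_zero_single] at this
  rw [this]
  norm_num

/-- The main theorem: the bound `(21/22) d` on the level one sum. -/
theorem level_one_sum_le {d : ℕ} (hd : 2 ≤ d) (f : (Fin n → Bool) → ℝ)
    (hf : ∀ x, f x = 1 ∨ f x = -1)
    (hdeg : ∀ S : Finset (Fin n), d < S.card → fourierCoeff f S = 0) :
    ∑ i, fourierCoeff f {i} ≤ (21 / 22 : ℝ) * d := by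
  have hd0 : (0 : ℝ) < d := by
    have : 0 < d := by omega
    exact_mod_cast this
  by_cases hconst : (∃ x₁, f x₁ = 1) ∧ (∃ x₂, f x₂ = -1)
  · obtain ⟨⟨x₁, h1⟩, ⟨x₂, h2⟩⟩ := hconst
    have hQ : ∀ t : ℝ, |t| < 1 → |(QQ f).eval t| < 1 := fun t ht => QQ_abs_lt f hf h1 h2 ht
    have hP : ∀ t : ℝ, |t| < 1 →
        (1 - t ^ 2) * |(QQ f).derivative.eval t| ≤ d * (1 - (QQ f).eval t ^ 2) := by
      intro t ht
      rw [QQ_deriv_eval, QQ_eval]
      exact poincare ht f hf hdeg
    obtain ⟨hs0, hs1⟩ := s_facts hd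
    have hode := ode_bound (QQ f) d hQ hP hs0 hs1
    have hK := K_le hd
    have hr := riesz_two_nodes (by omega : 0 < d) (QQ f) (QQ_natDegree f hdeg)
      (fun x hx => QQ_abs_le f hf hx)
    rw [QQ_deriv_zero] at hr
    have hw := w0_lower (by omega : 0 < d)
    set s := Real.sin (Real.pi / (2 * d)) with hs
    set G := 2 - ((QQ f).eval s - (QQ f).eval (-s)) with hG
    have hK1 : 0 < ((1 + s) / (1 - s)) ^ d + 1 := by
      have : 0 < (1 + s) / (1 - s) := div_pos (by linarith) (by linarith)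
      positivity
    have hG0 : 4 / 35 ≤ G := by
      refine le_trans ?_ hode
      apply div_le_div_of_nonneg_left (by norm_num) hK1
      linarith
    have hpi := Real.pi_pos
    have hpi2 := Real.pi_lt_d4
    have hpisq : Real.pi ^ 2 ≤ 352 / 35 := by
      have : Real.pi ≤ 3.1416 := hpi2.le
      nlinarith
    have h4 : (d : ℝ) / 22 ≤ 4 * d / Real.pi ^ 2 * (4 / 35) := by
      have hpos : 0 < Real.pi ^ 2 := by positivity
      rw [div_mul_eq_mul_div, le_div_iff₀ hpos]
      nlinarith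
    have h5 : 4 * d / Real.pi ^ 2 * (4 / 35) ≤ w0 d * G := by
      apply mul_le_mul hw hG0 (by norm_num)
      unfold w0
      positivity
    linarith
  · have hc : ∃ c : ℝ, ∀ x, f x = c := by
      rw [not_and_or] at hconst
      rcases hconst with h | h
      · refine ⟨-1, fun x => ?_⟩
        rcases hf x with h1 | h1
        · exact absurd ⟨x, h1⟩ h
        · exact h1
      · refine ⟨1, fun x => ?_⟩
        rcases hf x with h1 | h1
        · exact h1
        · exact absurd ⟨x, h1⟩ h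
    obtain ⟨c, hc⟩ := hc
    have hQc : QQ f = Polynomial.C c := by
      apply Polynomial.funext
      intro t
      rw [QQ_eval_eq_W, Polynomial.eval_C, Finset.sum_congr rfl (fun x _ => by rw [hc x]),
        ← Finset.sum_mul, W_sum, one_mul]
    rw [← QQ_deriv_zero, hQc]
    simp

end Vale.Agent.Lib.P047
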