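import Mathlib

/-!
The M. Riesz interpolation formula for the derivative at `0` of `Q (sin φ)`, `Q` a real polynomial
of degree at most `D`, with nodes `(2k+1)π/(2D)`.
-/

open Finset Complex

namespace Vale.Agent.Lib.P047

/-- a primitive `4D`-th root of unity -/
noncomputable def xi (D : ℕ) : ℂ := Complex.exp (2 * Real.pi * I / ((4 * D : ℕ) : ℂ))

lemma xi_prim {D : ℕ} (hD : 0 < D) : IsPrimitiveRoot (xi D) (4 * D) :=
  Complex.isPrimitiveRoot_exp (4 * D) (by omega)

lemma xi_pow_D {D : ℕ} (hD : 0 < D) : xi D ^ D = I := by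
  unfold xi
  rw [← Complex.exp_nat_mul]
  have hD' : (D : ℂ) ≠ 0 := by exact_mod_cast hD.ne'
  have : (D : ℂ) * (2 * Real.pi * I / ((4 * D : ℕ) : ℂ)) = Real.pi / 2 * I := by
    push_cast
    field_simp
    ring
  rw [this, exp_pi_div_two_mul_I]

/-- the `k`-th node on the unit circle -/
noncomputable def uu (D k : ℕ) : ℂ := xi D ^ (2 * k + 1)

lemma uu_pow_D {D : ℕ} (hD : 0 < D) (k : ℕ) : uu D k ^ D = I * (-1) ^ k := by
  unfold uu
  rw [← pow_mul, mul_comm, pow_mul, xi_pow_D hD, pow_succ, pow_mul, I_sq]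
  ring

lemma uu_pow_two_D {D : ℕ} (hD : 0 < D) (k : ℕ) : uu D k ^ (2 * D) = -1 := by
  rw [mul_comm, pow_mul, uu_pow_D hD, mul_pow, I_sq, ← pow_mul]
  simp

lemma uu_ne_one {D : ℕ} (hD : 0 < D) (k : ℕ) : uu D k ≠ 1 := by
  intro h
  have := uu_pow_two_D hD k
  rw [h, one_pow] at this
  norm_num at this

lemma uu_ne_zero {D : ℕ} (hD : 0 < D) (k : ℕ) : uu D k ≠ 0 := by
  intro h
  have := uu_pow_D hD k
  rw [h, zero_pow hD.ne'] at this
  have h2 : (I * (-1) ^ k : ℂ) ≠ 0 := mul_ne_zero I_ne_zero (pow_ne_zero _ (by norm_num))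
  exact h2 this.symm

/-- arithmetic-geometric sum -/
lemma arith_geom (u : ℂ) (N : ℕ) :
    (u - 1) ^ 2 * ∑ s ∈ range N, (s : ℂ) * u ^ s = ((N : ℂ) - 1) * u ^ (N + 1) - N * u ^ N + u := by
  induction N with
  | zero => simp
  | succ N ih =>
    rw [sum_range_succ, mul_add, ih]
    push_cast
    ring

lemma inv_sq_formula (u : ℂ) (N : ℕ) (hu : u ^ N = -1) (hu1 : u ≠ 1) :
    ((u - 1) ^ 2)⁻¹ = (1 / 4) * ∑ s ∈ range N, (2 * (s : ℂ) + 2 - N) * u ^ s := by
  have h0 : u - 1 ≠ 0 := sub_ne_zero.mpr hu1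
  have hg : (∑ s ∈ range N, u ^ s) * (u - 1) = u ^ N - 1 := geom_sum_mul u N
  have ha := arith_geom u N
  have key : (u - 1) ^ 2 * ∑ s ∈ range N, (2 * (s : ℂ) + 2 - N) * u ^ s = 4 := by
    have : ∑ s ∈ range N, (2 * (s : ℂ) + 2 - N) * u ^ s
        = 2 * ∑ s ∈ range N, (s : ℂ) * u ^ s + (2 - N) * ∑ s ∈ range N, u ^ s := by
      rw [Finset.mul_sum, Finset.mul_sum, ← Finset.sum_add_distrib]
      apply Finset.sum_congr rfl
      intro s _
      ring
    rw [this, mul_add]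
    have h1 : (u - 1) ^ 2 * (2 * ∑ s ∈ range N, (s : ℂ) * u ^ s)
        = 2 * (((N : ℂ) - 1) * u ^ (N + 1) - N * u ^ N + u) := by
      rw [← ha]; ring
    have h2 : (u - 1) ^ 2 * ((2 - (N : ℂ)) * ∑ s ∈ range N, u ^ s)
        = (2 - (N : ℂ)) * (u - 1) * (u ^ N - 1) := by
      rw [← hg]; ring
    rw [h1, h2, pow_succ, hu]
    ring
  have h3 : ((1 : ℂ) / 4) * (∑ s ∈ range N, (2 * (s : ℂ) + 2 - N) * u ^ s) * (u - 1) ^ 2 = 1 := by
    rw [mul_assoc, mul_comm (∑ s ∈ range N, (2 * (s : ℂ) + 2 - N) * u ^ s), key]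
    norm_num
  exact (eq_inv_of_mul_eq_one_left h3).symm

/-- power sums over the nodes -/
lemma sum_uu_pow_of_not_dvd {D : ℕ} (hD : 0 < D) {r : ℕ} (hr : ¬ (2 * D ∣ r)) :
    ∑ k ∈ range (2 * D), uu D k ^ r = 0 := by
  have hprim := xi_prim hD
  have h1 : ∀ k, uu D k ^ r = xi D ^ r * (xi D ^ (2 * r)) ^ k := by
    intro k
    unfold uu
    rw [← pow_mul, ← pow_mul, ← pow_add]
    congr 1
    ring
  rw [Finset.sum_congr rfl (fun k _ => h1 k), ← Finset.mul_sum]
  have hne : xi D ^ (2 * r) ≠ 1 := by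
    intro h
    have := (hprim.pow_eq_one_iff_dvd _).mp h
    apply hr
    have h4 : 2 * (2 * D) ∣ 2 * r := by
      have : 2 * (2 * D) = 4 * D := by ring
      rw [this]; exact ‹4 * D ∣ 2 * r›
    exact Nat.dvd_of_mul_dvd_mul_left (by norm_num) h4
  rw [geom_sum_eq hne]
  have : (xi D ^ (2 * r)) ^ (2 * D) = 1 := by
    rw [← pow_mul]
    have : 2 * r * (2 * D) = (4 * D) * r := by ring
    rw [this, pow_mul, hprim.pow_eq_one, one_pow]
  rw [this]
  simp

lemma sum_uu_pow_two_D {D : ℕ} (hD : 0 < D) :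
    ∑ k ∈ range (2 * D), uu D k ^ (2 * D) = -(2 * D : ℂ) := by
  rw [Finset.sum_congr rfl (fun k _ => uu_pow_two_D hD k)]
  simp

lemma sum_uu_pow_four_D {D : ℕ} (hD : 0 < D) :
    ∑ k ∈ range (2 * D), uu D k ^ (4 * D) = (2 * D : ℂ) := by
  have : ∀ k, uu D k ^ (4 * D) = 1 := by
    intro k
    have : 4 * D = (2 * D) * 2 := by ring
    rw [this, pow_mul, uu_pow_two_D hD]
    norm_num
  rw [Finset.sum_congr rfl (fun k _ => this k)]
  simp

/-- the key evaluation of the weighted power sums -/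
lemma sum_pow_div_sq {D : ℕ} (hD : 0 < D) {A : ℕ} (hA1 : 1 ≤ A) (hA2 : A ≤ 2 * D + 1) :
    ∑ k ∈ range (2 * D), uu D k ^ A * ((uu D k - 1) ^ 2)⁻¹ = D * ((A : ℂ) - 1 - D) := by
  have h1 : ∀ k ∈ range (2 * D), uu D k ^ A * ((uu D k - 1) ^ 2)⁻¹
      = (1 / 4) * ∑ s ∈ range (2 * D), (2 * (s : ℂ) + 2 - (2 * D : ℕ)) * uu D k ^ (A + s) := by
    intro k _
    rw [inv_sq_formula (uu D k) (2 * D) (uu_pow_two_D hD k) (uu_ne_one hD k)]
    rw [mul_left_comm, Finset.mul_sum]
    congr 1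
    apply Finset.sum_congr rfl
    intro s _
    rw [pow_add]
    ring
  rw [Finset.sum_congr rfl h1, ← Finset.mul_sum, Finset.sum_comm]
  have h2 : ∀ s ∈ range (2 * D), ∑ k ∈ range (2 * D), (2 * (s : ℂ) + 2 - (2 * D : ℕ)) * uu D k ^ (A + s)
      = (2 * (s : ℂ) + 2 - (2 * D : ℕ)) * ∑ k ∈ range (2 * D), uu D k ^ (A + s) := by
    intro s _
    rw [Finset.mul_sum]
  rw [Finset.sum_congr rfl h2]
  by_cases hA : A ≤ 2 * D
  · -- the unique multiple of `2D` is `2D`, at `s = 2D - A`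
    rw [Finset.sum_eq_single (2 * D - A)]
    · have e : A + (2 * D - A) = 2 * D := by omega
      rw [e, sum_uu_pow_two_D hD]
      have : ((2 * D - A : ℕ) : ℂ) = 2 * (D : ℂ) - A := by
        rw [Nat.cast_sub hA]; push_cast; ring
      rw [this]
      push_cast
      ring
    · intro s hs hne
      rw [sum_uu_pow_of_not_dvd hD, mul_zero]
      rintro ⟨c, hc⟩
      have hs' : s < 2 * D := Finset.mem_range.mp hs
      have hc1 : c ≠ 0 := by
        rintro rfl
        omega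
      have hc2 : c < 2 := by
        by_contra hc2
        have : 2 * D * 2 ≤ 2 * D * c := Nat.mul_le_mul_left _ (not_lt.mp hc2)
        omega
      have hc3 : c = 1 := by omega
      subst hc3
      omega
    · intro h
      exact absurd (Finset.mem_range.mpr (by omega)) h
  · have hA' : A = 2 * D + 1 := by omega
    subst hA'
    rw [Finset.sum_eq_single (2 * D - 1)]
    · have e : 2 * D + 1 + (2 * D - 1) = 4 * D := by omega
      rw [e, sum_uu_pow_four_D hD]
      have : ((2 * D - 1 : ℕ) : ℂ) = 2 * (D : ℂ) - 1 := by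
        rw [Nat.cast_sub (by omega)]; push_cast; ring
      rw [this]
      push_cast
      ring
    · intro s hs hne
      rw [sum_uu_pow_of_not_dvd hD, mul_zero]
      rintro ⟨c, hc⟩
      have hs' : s < 2 * D := Finset.mem_range.mp hs
      have hc2 : c < 2 := by
        by_contra hc2
        have : 2 * D * 2 ≤ 2 * D * c := Nat.mul_le_mul_left _ (not_lt.mp hc2)
        omega
      have hc1 : c ≠ 0 := by
        rintro rfl
        omega
      have hc3 : c = 1 := by omega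
      subst hc3
      omega
    · intro h
      exact absurd (Finset.mem_range.mpr (by omega)) h


/-- the angular nodes -/
noncomputable def theta (D k : ℕ) : ℝ := (2 * k + 1) * Real.pi / (2 * D)

/-- the Riesz weights -/
noncomputable def wt (D k : ℕ) : ℝ := (-1) ^ k / (4 * D * Real.sin (theta D k / 2) ^ 2)

lemma uu_eq_exp {D : ℕ} (hD : 0 < D) (k : ℕ) : uu D k = Complex.exp ((theta D k : ℂ) * I) := by
  unfold uu xi theta
  rw [← Complex.exp_nat_mul]
  have hD' : (D : ℂ) ≠ 0 := by exact_mod_cast hD.ne'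
  congr 1
  push_cast
  field_simp
  ring

lemma sin_half_pos {D k : ℕ} (hD : 0 < D) (hk : k < 2 * D) : 0 < Real.sin (theta D k / 2) := by
  apply Real.sin_pos_of_pos_of_lt_pi
  · unfold theta
    have : (0 : ℝ) < D := by exact_mod_cast hD
    positivity
  · unfold theta
    have h1 : (0 : ℝ) < D := by exact_mod_cast hD
    have h2 : (2 * (k : ℝ) + 1) < 4 * D := by
      have : 2 * k + 1 < 4 * D := by omega
      exact_mod_cast this
    have h3 := Real.pi_pos
    rw [div_div, div_lt_iff₀ (by positivity)]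
    nlinarith

lemma sq_formula {D : ℕ} (hD : 0 < D) (k : ℕ) :
    (uu D k - 1) ^ 2 = -4 * uu D k * ((Real.sin (theta D k / 2) : ℝ) : ℂ) ^ 2 := by
  set v := Complex.exp (((theta D k / 2 : ℝ) : ℂ) * I) with hv
  have hv0 : v ≠ 0 := Complex.exp_ne_zero _
  have hu : uu D k = v ^ 2 := by
    rw [uu_eq_exp hD, hv, ← Complex.exp_nat_mul]
    congr 1
    push_cast
    ring
  have hvi : Complex.exp (-((theta D k / 2 : ℝ) : ℂ) * I) = v⁻¹ := by
    rw [hv, ← Complex.exp_neg]
    congr 1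
    ring
  have hs : ((Real.sin (theta D k / 2) : ℝ) : ℂ) = (v⁻¹ - v) * I / 2 := by
    rw [Complex.ofReal_sin, Complex.sin, hvi]
  rw [hu, hs]
  have hI : I ^ 2 = -1 := I_sq
  field_simp
  ring_nf
  rw [hI]
  ring

lemma wt_eq {D k : ℕ} (hD : 0 < D) (hk : k < 2 * D) :
    (wt D k : ℂ) = (I / D) * uu D k ^ (D + 1) * ((uu D k - 1) ^ 2)⁻¹ := by
  have hs := (sin_half_pos hD hk).ne'
  have hs' : ((Real.sin (theta D k / 2) : ℝ) : ℂ) ≠ 0 := by exact_mod_cast hs
  have hu0 := uu_ne_zero hD k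
  have hD' : (D : ℂ) ≠ 0 := by exact_mod_cast hD.ne'
  rw [sq_formula hD, pow_succ, uu_pow_D hD]
  unfold wt
  push_cast
  field_simp
  ring_nf
  simp [I_sq]

/-- Riesz functional on monomials -/
lemma functional_monomial {D : ℕ} (hD : 0 < D) {a : ℕ} (ha : a ≤ 2 * D) :
    ∑ k ∈ range (2 * D), (wt D k : ℂ) * (uu D k ^ D)⁻¹ * uu D k ^ a = I * ((a : ℂ) - D) := by
  have hD' : (D : ℂ) ≠ 0 := by exact_mod_cast hD.ne'
  have h1 : ∀ k ∈ range (2 * D), (wt D k : ℂ) * (uu D k ^ D)⁻¹ * uu D k ^ a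
      = (I / D) * (uu D k ^ (a + 1) * ((uu D k - 1) ^ 2)⁻¹) := by
    intro k hk
    rw [wt_eq hD (Finset.mem_range.mp hk)]
    have hu0 := pow_ne_zero D (uu_ne_zero hD k)
    rw [pow_succ (uu D k) D, pow_succ (uu D k) a]
    field_simp
  rw [Finset.sum_congr rfl h1, ← Finset.mul_sum, sum_pow_div_sq hD (by omega) (by omega)]
  push_cast
  field_simp
  ring

/-- Riesz functional on polynomials -/
lemma functional_poly {D : ℕ} (hD : 0 < D) (P : Polynomial ℂ) (hP : P.natDegree ≤ 2 * D) :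
    ∑ k ∈ range (2 * D), (wt D k : ℂ) * (uu D k ^ D)⁻¹ * P.eval (uu D k)
      = I * (P.derivative.eval 1 - D * P.eval 1) := by
  have hlt : P.natDegree < 2 * D + 1 := by omega
  have e1 : ∀ z, P.eval z = ∑ a ∈ range (2 * D + 1), P.coeff a * z ^ a :=
    fun z => Polynomial.eval_eq_sum_range' hlt z
  have e2 : P.derivative.eval 1 = ∑ a ∈ range (2 * D + 1), P.coeff a * (a : ℂ) := by
    conv_lhs => rw [Polynomial.as_sum_range' P (2 * D + 1) hlt]
    rw [Polynomial.derivative_sum, Polynomial.eval_finsetSum]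
    apply Finset.sum_congr rfl
    intro a _
    rw [Polynomial.derivative_monomial, Polynomial.eval_monomial, one_pow, mul_one]
  rw [e2, e1 1]
  simp only [e1 (uu D _)]
  have h3 : ∀ k ∈ range (2 * D), (wt D k : ℂ) * (uu D k ^ D)⁻¹ *
      ∑ a ∈ range (2 * D + 1), P.coeff a * uu D k ^ a
      = ∑ a ∈ range (2 * D + 1), P.coeff a * ((wt D k : ℂ) * (uu D k ^ D)⁻¹ * uu D k ^ a) := by
    intro k _
    rw [Finset.mul_sum]
    apply Finset.sum_congr rfl
    intro a _
    ring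
  rw [Finset.sum_congr rfl h3, Finset.sum_comm]
  have h4 : ∀ a ∈ range (2 * D + 1), ∑ k ∈ range (2 * D),
      P.coeff a * ((wt D k : ℂ) * (uu D k ^ D)⁻¹ * uu D k ^ a)
      = P.coeff a * (I * ((a : ℂ) - D)) := by
    intro a ha
    rw [← Finset.mul_sum, functional_monomial hD (by
      have := Finset.mem_range.mp ha
      omega)]
  rw [Finset.sum_congr rfl h4, Finset.mul_sum, ← Finset.sum_sub_distrib, Finset.mul_sum]
  apply Finset.sum_congr rfl
  intro a _
  rw [one_pow]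
  ring

/-- the power of `sin` at a node, through `u` -/
lemma sin_theta_eq {D : ℕ} (hD : 0 < D) (k : ℕ) :
    ((Real.sin (theta D k) : ℝ) : ℂ) = (uu D k ^ 2 - 1) * (2 * I * uu D k)⁻¹ := by
  have hu0 := uu_ne_zero hD k
  have hvi : Complex.exp (-((theta D k : ℝ) : ℂ) * I) = (uu D k)⁻¹ := by
    rw [uu_eq_exp hD, ← Complex.exp_neg]
    congr 1
    ring
  rw [Complex.ofReal_sin, Complex.sin, hvi, ← uu_eq_exp hD]
  have hI : I ^ 2 = -1 := I_sq
  field_simp
  ring_nf
  rw [hI]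
  ring

/-- the test polynomial of the `j`-th power of `sin` -/
noncomputable def testP (D j : ℕ) : Polynomial ℂ :=
  Polynomial.C (((2 * I)⁻¹) ^ j) * (Polynomial.X ^ 2 - 1) ^ j * Polynomial.X ^ (D - j)

lemma testP_natDegree {D j : ℕ} (hj : j ≤ D) : (testP D j).natDegree ≤ 2 * D := by
  unfold testP
  have h1 : ((Polynomial.X ^ 2 - 1 : Polynomial ℂ)).natDegree ≤ 2 := by
    have : (Polynomial.X ^ 2 - 1 : Polynomial ℂ) = Polynomial.X ^ 2 - Polynomial.C 1 := by simp
    rw [this]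
    exact Polynomial.natDegree_X_pow_sub_C.le
  have h2 := Polynomial.natDegree_pow_le (p := (Polynomial.X ^ 2 - 1 : Polynomial ℂ)) (n := j)
  have h3 := Polynomial.natDegree_C_mul_le (((2 * I)⁻¹) ^ j) ((Polynomial.X ^ 2 - 1 : Polynomial ℂ) ^ j)
  have h4 := Polynomial.natDegree_mul_le (p := Polynomial.C (((2 * I)⁻¹) ^ j) * (Polynomial.X ^ 2 - 1 : Polynomial ℂ) ^ j)
    (q := Polynomial.X ^ (D - j))
  have h5 := Polynomial.natDegree_X_pow_le (R := ℂ) (D - j)
  have h6 : j * (Polynomial.X ^ 2 - 1 : Polynomial ℂ).natDegree ≤ j * 2 := Nat.mul_le_mul_left _ h1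
  omega

lemma testP_eval {D j : ℕ} (hD : 0 < D) (hj : j ≤ D) (k : ℕ) :
    (uu D k ^ D)⁻¹ * (testP D j).eval (uu D k) = ((Real.sin (theta D k) : ℝ) : ℂ) ^ j := by
  have hu0 := uu_ne_zero hD k
  unfold testP
  rw [sin_theta_eq hD, mul_pow, Polynomial.eval_mul, Polynomial.eval_mul, Polynomial.eval_C,
    Polynomial.eval_pow, Polynomial.eval_pow, Polynomial.eval_sub, Polynomial.eval_pow,
    Polynomial.eval_X, Polynomial.eval_one]
  have : uu D k ^ D = uu D k ^ j * uu D k ^ (D - j) := by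
    rw [← pow_add]
    congr 1
    omega
  rw [this, mul_inv, mul_inv, inv_pow]
  have h1 : uu D k ^ (D - j) ≠ 0 := pow_ne_zero _ hu0
  have h2 : uu D k ^ j ≠ 0 := pow_ne_zero _ hu0
  field_simp
  have h3 : (1 / (2 * I)) ^ j * (2 * I * uu D k) ^ j = uu D k ^ j := by
    rw [← mul_pow]
    congr 1
    field_simp
  linear_combination (uu D k ^ 2 - 1) ^ j * h3

/-- The value of the Riesz functional on `sin^j`. -/
lemma functional_sin_pow {D j : ℕ} (hD : 0 < D) (hj : j ≤ D) :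
    ∑ k ∈ range (2 * D), (wt D k : ℂ) * ((Real.sin (theta D k) : ℝ) : ℂ) ^ j
      = if j = 1 then 1 else 0 := by
  have h1 : ∀ k ∈ range (2 * D), (wt D k : ℂ) * ((Real.sin (theta D k) : ℝ) : ℂ) ^ j
      = (wt D k : ℂ) * (uu D k ^ D)⁻¹ * (testP D j).eval (uu D k) := by
    intro k _
    rw [← testP_eval hD hj k, mul_assoc]
  rw [Finset.sum_congr rfl h1, functional_poly hD _ (testP_natDegree hj)]
  unfold testP
  simp only [Polynomial.derivative_mul, Polynomial.derivative_C, Polynomial.derivative_pow,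
    Polynomial.derivative_sub, Polynomial.derivative_X, Polynomial.derivative_one, zero_mul,
    zero_add, Polynomial.eval_add, Polynomial.eval_mul, Polynomial.eval_C, Polynomial.eval_pow,
    Polynomial.eval_sub, Polynomial.eval_X, Polynomial.eval_one, one_pow, sub_self,
    Polynomial.eval_natCast, sub_zero, mul_one, one_mul, Polynomial.eval_sub, Polynomial.eval_zero]
  rcases j with _ | j
  · simp
  · rcases j with _ | j
    · simp
    · simp

/-- The M. Riesz interpolation formula. -/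
theorem riesz {D : ℕ} (hD : 0 < D) (Q : Polynomial ℝ) (hQ : Q.natDegree ≤ D) :
    ∑ k ∈ range (2 * D), wt D k * Q.eval (Real.sin (theta D k)) = Q.derivative.eval 0 := by
  have hlt : Q.natDegree < D + 1 := by omega
  have e1 : ∀ z, Q.eval z = ∑ j ∈ range (D + 1), Q.coeff j * z ^ j :=
    fun z => Polynomial.eval_eq_sum_range' hlt z
  have e2 : Q.derivative.eval 0 = Q.coeff 1 := by
    rw [← Polynomial.coeff_zero_eq_eval_zero, Polynomial.coeff_derivative]
    simp
  have e3 : ∑ k ∈ range (2 * D), wt D k * Q.eval (Real.sin (theta D k))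
      = ∑ j ∈ range (D + 1), Q.coeff j * ∑ k ∈ range (2 * D), wt D k * Real.sin (theta D k) ^ j := by
    simp only [e1]
    simp only [Finset.mul_sum]
    rw [Finset.sum_comm]
    apply Finset.sum_congr rfl
    intro j _
    apply Finset.sum_congr rfl
    intro k _
    ring
  have e4 : ∀ j ∈ range (D + 1), ∑ k ∈ range (2 * D), wt D k * Real.sin (theta D k) ^ j
      = if j = 1 then 1 else 0 := by
    intro j hj
    have hj' : j ≤ D := by
      have := Finset.mem_range.mp hj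
      omega
    have := functional_sin_pow hD hj'
    have h2 : ((∑ k ∈ range (2 * D), wt D k * Real.sin (theta D k) ^ j : ℝ) : ℂ)
        = ((if j = 1 then 1 else 0 : ℝ) : ℂ) := by
      simp only [Complex.ofReal_sum, Complex.ofReal_mul, Complex.ofReal_pow]
      rw [this]
      split_ifs <;> simp
    exact Complex.ofReal_injective h2
  rw [e3, e2, Finset.sum_congr rfl (fun j hj => by rw [e4 j hj])]
  rw [Finset.sum_eq_single 1]
  · simp
  · intro j _ hj
    simp [hj]
  · intro h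
    exact absurd (Finset.mem_range.mpr (by omega)) h

/-- The sign of the weight. -/
lemma abs_wt {D k : ℕ} (hD : 0 < D) (hk : k < 2 * D) : |wt D k| = (-1) ^ k * wt D k := by
  have hs := sin_half_pos hD hk
  have hD' : (0 : ℝ) < D := by exact_mod_cast hD
  unfold wt
  rw [abs_div, abs_pow, abs_neg, abs_one, one_pow, abs_of_pos (by positivity)]
  rw [mul_div_assoc', ← mul_pow]
  simp

/-- The weights have total mass `D`. -/
theorem sum_abs_wt {D : ℕ} (hD : 0 < D) : ∑ k ∈ range (2 * D), |wt D k| = D := by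
  have h1 := functional_monomial hD (a := 0) (by omega)
  have h2 : ∀ k ∈ range (2 * D), (wt D k : ℂ) * (uu D k ^ D)⁻¹ * uu D k ^ 0
      = -I * (((-1 : ℝ) ^ k * wt D k : ℝ) : ℂ) := by
    intro k _
    rw [uu_pow_D hD, pow_zero, mul_one, mul_inv, Complex.inv_I]
    have : (((-1 : ℂ) ^ k)⁻¹ : ℂ) = (-1) ^ k := by
      rw [← inv_pow]
      congr 1
      norm_num
    rw [this]
    push_cast
    ring
  rw [Finset.sum_congr rfl h2, ← Finset.mul_sum] at h1
  have h3 : ((∑ k ∈ range (2 * D), (-1 : ℝ) ^ k * wt D k : ℝ) : ℂ) = ((D : ℝ) : ℂ) := by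
    push_cast at h1 ⊢
    have hI : (-I : ℂ) ≠ 0 := neg_ne_zero.mpr I_ne_zero
    apply mul_left_cancel₀ hI
    rw [h1]
    ring
  have h4 : ∑ k ∈ range (2 * D), (-1 : ℝ) ^ k * wt D k = D := by exact_mod_cast h3
  rw [← h4]
  exact Finset.sum_congr rfl (fun k hk => abs_wt hD (Finset.mem_range.mp hk))

end Vale.Agent.Lib.P047
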